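import Vale.Agent.P039.Bz.Stmt

/-!
# P039-B, adapter A4: `Bz.HamStmt` from the concrete form of STEP 1

`Mt`, `Gd`, `HC` are the forms of row L6 (note 21078).
-/

namespace Vale.Agent.P039.H50

open Vale.Agent.P039.Bn Vale.Agent.P039.Bz

section

variable {B W V : Type} (M : PMap B W V) (b₀ : B)

/-- `f` matches the black vertices other than `b₀` with the faces off `b₀`. -/
def Mt (f : B → Fin 3) : Prop :=
  (∀ b, b ≠ b₀ → ∀ j, M.c (f b) b ≠ M.c j b₀) ∧
    ∀ b b', b ≠ b₀ → b' ≠ b₀ → M.c (f b) b = M.c (f b') b' → b = b'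

/-- the graph on the faces whose edges are the black vertices off `b₀` (joining the two faces
other than the matched one), the faces at `b₀` being identified, is connected. -/
def Gd (f : B → Fin 3) : Prop :=
  ∀ x y : V, Relation.EqvGen (fun x y =>
    (∃ b, b ≠ b₀ ∧ x = M.c (f b + 1) b ∧ y = M.c (f b + 2) b) ∨
      ∃ i j, x = M.c i b₀ ∧ y = M.c j b₀) x y

/-- the complement of the perfect matching `m` is connected. -/
def HC (m : B → Fin 3) : Prop :=
  Function.Bijective (fun b => M.e (m b) b) ∧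
    ∀ x y : B ⊕ W, Relation.EqvGen (fun x y =>
      ∃ b i, i ≠ m b ∧ x = Sum.inl b ∧ y = Sum.inr (M.e i b)) x y

open Classical in
/-- extension of `f` to all black vertices -/
noncomputable def ext (f : BOff b₀ → Fin 3) (b : B) : Fin 3 :=
  if h : b ≠ b₀ then f ⟨b, h⟩ else 0

theorem ext_of {f : BOff b₀ → Fin 3} {b : B} (h : b ≠ b₀) : ext b₀ f b = f ⟨b, h⟩ := by
  unfold ext
  rw [dif_pos h]

theorem fo_eq_some {b : BOff b₀} {j : Fin 3} {v : VOff M b₀} (h : Fo M b₀ b j = some v) :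
    M.c j b.1 = v.1 := by
  unfold Fo at h
  split_ifs at h with hj
  have := Option.some.inj h
  rw [← this]

theorem fo_of {b : BOff b₀} {j : Fin 3} (h : ∀ i, M.c i b₀ ≠ M.c j b.1) :
    Fo M b₀ b j = some ⟨M.c j b.1, h⟩ := by
  unfold Fo
  rw [dif_pos h]

theorem mt_of_mat {f : BOff b₀ → Fin 3} (h : Mat (Fo M b₀) f) : Mt M b₀ (ext b₀ f) := by
  obtain ⟨φ, hφ⟩ := h
  have key : ∀ (b : B) (hb : b ≠ b₀), M.c (ext b₀ f b) b = (φ ⟨b, hb⟩).1 := by
    intro b hb
    rw [ext_of b₀ hb]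
    exact fo_eq_some M b₀ (b := ⟨b, hb⟩) (hφ ⟨b, hb⟩)
  constructor
  · intro b hb j
    rw [key b hb]
    exact fun h => (φ ⟨b, hb⟩).2 j h.symm
  · intro b b' hb hb' h
    rw [key b hb, key b' hb'] at h
    have := φ.injective (Subtype.ext h)
    exact congrArg Subtype.val this

theorem two_other (f i j : Fin 3) (hi : i ≠ f) (hj : j ≠ f) (hij : i ≠ j) :
    (i = f + 1 ∧ j = f + 2) ∨ (i = f + 2 ∧ j = f + 1) := by
  revert f i j; decide

theorem gd_of_good {f : BOff b₀ → Fin 3} (h : Good (Fo M b₀) f) : Gd M b₀ (ext b₀ f) := by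
  classical
  set R : V → V → Prop := fun x y =>
    (∃ b, b ≠ b₀ ∧ x = M.c (ext b₀ f b + 1) b ∧ y = M.c (ext b₀ f b + 2) b) ∨
      ∃ i j, x = M.c i b₀ ∧ y = M.c j b₀ with hR
  have hroot : ∀ i, Relation.EqvGen R (M.c i b₀) (M.c 0 b₀) := fun i =>
    Relation.EqvGen.rel _ _ (Or.inr ⟨i, 0, rfl, rfl⟩)
  have hall : ∀ x, Relation.EqvGen R x (M.c 0 b₀) := by
    intro x
    by_contra hx
    have hxV : ∀ j, M.c j b₀ ≠ x := by
      intro j hj
      exact hx (hj ▸ hroot j)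
    have hne : ({v | ¬ Relation.EqvGen R v.1 (M.c 0 b₀)} : Set (VOff M b₀)).Nonempty :=
      ⟨(⟨x, hxV⟩ : VOff M b₀), hx⟩
    obtain ⟨b, i, j, hi, hj, ⟨v, hvK, hv⟩, hv'⟩ := h _ hne
    have hvK' : ¬ Relation.EqvGen R v.1 (M.c 0 b₀) := hvK
    have hij : i ≠ j := by
      rintro rfl
      exact hv' v hvK hv
    have hc : M.c i b.1 = v.1 := fo_eq_some M b₀ hv
    have hext : ext b₀ f b.1 = f b := ext_of b₀ b.2
    have hrel : Relation.EqvGen R (M.c i b.1) (M.c j b.1) := by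
      rcases two_other (f b) i j hi hj hij with ⟨h1, h2⟩ | ⟨h1, h2⟩
      · exact Relation.EqvGen.rel _ _ (Or.inl ⟨b.1, b.2, by rw [hext, h1], by rw [hext, h2]⟩)
      · exact Relation.EqvGen.symm _ _ (Relation.EqvGen.rel _ _
          (Or.inl ⟨b.1, b.2, by rw [hext, h2], by rw [hext, h1]⟩))
    have hend : Relation.EqvGen R (M.c j b.1) (M.c 0 b₀) := by
      by_cases hr : ∀ k, M.c k b₀ ≠ M.c j b.1
      · by_contra hn
        exact hv' ⟨M.c j b.1, hr⟩ hn (fo_of M b₀ hr)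
      · push Not at hr
        obtain ⟨k, hk⟩ := hr
        rw [← hk]
        exact hroot k
    exact hvK' (hc ▸ hrel.trans _ _ _ hend)
  intro x y
  exact (hall x).trans _ _ _ ((hall y).symm _ _)

theorem hamM_of_HC {m : B → Fin 3} (h : HC M m) : HamM M m := by
  refine ⟨h.1, ?_⟩
  intro S T hST hS b
  obtain ⟨s, hs⟩ := hS
  have key : ∀ x y : B ⊕ W, Relation.EqvGen (fun x y =>
      ∃ b i, i ≠ m b ∧ x = Sum.inl b ∧ y = Sum.inr (M.e i b)) x y →
      (Sum.elim (· ∈ S) (· ∈ T) x ↔ Sum.elim (· ∈ S) (· ∈ T) y) := by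
    intro x y hxy
    induction hxy with
    | rel x y h =>
      obtain ⟨b, i, hi, rfl, rfl⟩ := h
      exact hST b i hi
    | refl x => exact Iff.rfl
    | symm x y _ ih => exact ih.symm
    | trans x y z _ _ ih1 ih2 => exact ih1.trans ih2
  exact (key (Sum.inl s) (Sum.inl b) (h.2 _ _)).1 hs

end

/-- **Adapter A4.** `HamStmt` from STEP 1 in the concrete form. -/
theorem hamStmt_of
    (step1 : ∀ (B W V : Type) [Fintype B] [Fintype W] [Fintype V] (M : PMap B W V),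
      M.Sph → ∀ (b₀ : B) (f : B → Fin 3), Mt M b₀ f → Gd M b₀ f →
        ∀ c₀, ∃ m, HC M m ∧ m b₀ = c₀) : HamStmt := by
  intro B W V _ _ _ M hM b₀ f hf hg i
  obtain ⟨m, hm, hi⟩ := step1 B W V M hM b₀ (ext b₀ f) (mt_of_mat M b₀ hf) (gd_of_good M b₀ hg) i
  exact ⟨m, hamM_of_HC M hm, hi⟩

end Vale.Agent.P039.H50
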